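import Mathlib

/-!
# P078, walk: the semidefinite covariance lemma

For a subspace `V` of `ι → ℝ`, slacks `η` and weights `w` there is a positive semidefinite `U`
supported in `V` with diagonal at most one and `U ≤ diag (U_ii / η_i)`, whose weighted diagonal
sum reaches any `T` below the weight outside every set `S` with
`∑_{i ∈ S} (1 - η_i) ≤ codim V`.
-/

open scoped Classical

namespace Vale.Agent.P078.Walk

noncomputable section

variable {ι : Type*} [Fintype ι]

/-- The quadratic form of a matrix. -/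
def qf (Z : Matrix ι ι ℝ) (v : ι → ℝ) : ℝ := ∑ i, ∑ j, Z i j * (v i * v j)

theorem qf_continuous (v : ι → ℝ) : Continuous fun Z : Matrix ι ι ℝ => qf Z v := by
  unfold qf
  fun_prop

theorem qf_add (Z Z' : Matrix ι ι ℝ) (v : ι → ℝ) : qf (Z + Z') v = qf Z v + qf Z' v := by
  simp [qf, add_mul, Finset.sum_add_distrib]

theorem qf_smul (c : ℝ) (Z : Matrix ι ι ℝ) (v : ι → ℝ) : qf (c • Z) v = c * qf Z v := by
  simp [qf, Finset.mul_sum, mul_assoc]

theorem qf_outer (u v : ι → ℝ) : qf (Matrix.of fun i j => u i * u j) v = (∑ i, u i * v i) ^ 2 := by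
  simp only [qf, Matrix.of_apply, pow_two, Finset.sum_mul, Finset.mul_sum]
  exact Finset.sum_congr rfl fun i _ => Finset.sum_congr rfl fun j _ => by ring

theorem qf_single (Z : Matrix ι ι ℝ) (i : ι) : qf Z (Pi.single i 1) = Z i i := by
  simp [qf, Pi.single_apply]

theorem qf_eq_dot (Z : Matrix ι ι ℝ) (v : ι → ℝ) : qf Z v = dotProduct v (Z.mulVec v) := by
  simp only [qf, dotProduct, Matrix.mulVec, Finset.mul_sum]
  exact Finset.sum_congr rfl fun i _ => Finset.sum_congr rfl fun j _ => by ring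

/-- Symmetric with non-negative quadratic form. -/
theorem posSemidef_of_qf {Z : Matrix ι ι ℝ} (hs : ∀ i j, Z i j = Z j i) (h : ∀ v, 0 ≤ qf Z v) :
    Z.PosSemidef := by
  refine Matrix.PosSemidef.of_dotProduct_mulVec_nonneg
    (Matrix.IsHermitian.ext fun i j => by simpa using hs j i) fun v => ?_
  simpa [← qf_eq_dot] using h v

/-- A form that is non-negative and at least the norm on `W` has trace at least `dim W`. -/
theorem finrank_le_trace (Z : Matrix ι ι ℝ) (W : Submodule ℝ (ι → ℝ)) (h0 : ∀ v, 0 ≤ qf Z v)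
    (h1 : ∀ v ∈ W, ∑ i, v i ^ 2 ≤ qf Z v) : (Module.finrank ℝ W : ℝ) ≤ ∑ i, Z i i := by
  set E := EuclideanSpace ℝ ι
  let e : E ≃ₗ[ℝ] (ι → ℝ) := WithLp.linearEquiv 2 ℝ (ι → ℝ)
  let W' : Submodule ℝ E := W.comap e.toLinearMap
  have hfin : Module.finrank ℝ W' = Module.finrank ℝ W := by
    have : W' = W.map e.symm.toLinearMap := (Submodule.map_equiv_eq_comap_symm e.symm W).symm
    rw [this]
    exact LinearEquiv.finrank_eq (e.symm.submoduleMap W).symm
  let b := stdOrthonormalBasis ℝ W'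
  let vs : Fin (Module.finrank ℝ W') → E := fun k => (b k : E)
  have hvs : Orthonormal ℝ vs := b.orthonormal.comp_linearIsometry W'.subtypeₗᵢ
  obtain ⟨t, B, hsub, hB⟩ := hvs.toSubtypeRange.exists_orthonormalBasis_extension
  let M : E →ₗ[ℝ] E := Matrix.toEuclideanLin Z
  have hM : ∀ x : E, inner ℝ x (M x) = qf Z (e x) := fun x => by
    rw [qf_eq_dot, EuclideanSpace.inner_eq_star_dotProduct, dotProduct_comm, star_trivial]
    rfl
  have htr : LinearMap.trace ℝ E M = ∑ i, Z i i := by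
    rw [LinearMap.trace_eq_matrix_trace ℝ (EuclideanSpace.basisFun ι ℝ).toBasis]
    refine Finset.sum_congr rfl fun i _ => ?_
    simp [M, Matrix.diag_apply, LinearMap.toMatrix_apply, EuclideanSpace.basisFun_apply]
  rw [← htr, LinearMap.trace_eq_sum_inner M B]
  simp only [hM]
  have himg : (Finset.univ.image vs) ⊆ t := fun x hx => by
    obtain ⟨k, -, rfl⟩ := Finset.mem_image.1 hx
    exact hsub ⟨k, rfl⟩
  have hBv : ∀ x : t, B x = (x : E) := fun x => congrFun hB x
  calc (Module.finrank ℝ W : ℝ) = ∑ x ∈ Finset.univ.image vs, (1 : ℝ) := by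
        rw [Finset.sum_const, nsmul_eq_mul, mul_one,
          Finset.card_image_of_injective _ hvs.linearIndependent.injective, Finset.card_univ,
          Fintype.card_fin, hfin]
    _ ≤ ∑ x ∈ Finset.univ.image vs, qf Z (e x) := by
        refine Finset.sum_le_sum fun x hx => ?_
        obtain ⟨k, -, rfl⟩ := Finset.mem_image.1 hx
        refine le_trans (le_of_eq ?_) (h1 (e (vs k)) (b k).2)
        have h2 := hvs.1 k
        rw [EuclideanSpace.norm_eq, Real.sqrt_eq_one] at h2
        change (1 : ℝ) = ∑ i, (vs k).ofLp i ^ 2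
        simpa using h2.symm
    _ ≤ ∑ x ∈ t, qf Z (e x) :=
        Finset.sum_le_sum_of_subset_of_nonneg himg fun x _ _ => h0 _
    _ = ∑ x : t, qf Z (e (B x)) := by
        simp only [hBv]
        exact (Finset.sum_coe_sort t fun x => qf Z (e x)).symm

/-- Vectors of `V` supported in `S` form a subspace of codimension at most that of `V`. -/
theorem finrank_inter_support (V : Submodule ℝ (ι → ℝ)) (S : Finset ι) :
    ∃ W : Submodule ℝ (ι → ℝ), W ≤ V ∧ (∀ v ∈ W, ∀ i ∉ S, v i = 0) ∧
      S.card + Module.finrank ℝ V ≤ Fintype.card ι + Module.finrank ℝ W := by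
  let P : Submodule ℝ (ι → ℝ) := LinearMap.ker (LinearMap.funLeft ℝ ℝ (Subtype.val :
    {i // i ∉ S} → ι))
  refine ⟨V ⊓ P, inf_le_left, fun v hv i hi => congrFun (LinearMap.mem_ker.1 hv.2) ⟨i, hi⟩, ?_⟩
  have h1 := LinearMap.finrank_range_add_finrank_ker (LinearMap.funLeft ℝ ℝ (Subtype.val :
    {i // i ∉ S} → ι))
  have h2 := Submodule.finrank_le (LinearMap.range (LinearMap.funLeft ℝ ℝ (Subtype.val :
    {i // i ∉ S} → ι)))
  rw [Module.finrank_pi] at h1
  rw [Module.finrank_pi, Fintype.card_subtype_compl, Fintype.card_coe] at h2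
  have h3 := Submodule.finrank_sup_add_finrank_inf_eq V P
  have h4 := Submodule.finrank_le (V ⊔ P)
  rw [Module.finrank_pi] at h4
  have h5 := S.card_le_univ
  change _ ≤ _ + Module.finrank ℝ ↥(V ⊓ P)
  simp only [P] at h3 h4 ⊢
  omega

/-- Symmetric positive matrices supported in `V` of trace one. -/
def unitSet (V : Submodule ℝ (ι → ℝ)) : Set (Matrix ι ι ℝ) :=
  {U | (∀ i j, U i j = U j i) ∧ (∀ v, 0 ≤ qf U v) ∧ (∀ v, U.mulVec v ∈ V) ∧ ∑ i, U i i = 1}

theorem diag_nonneg {V : Submodule ℝ (ι → ℝ)} {U : Matrix ι ι ℝ} (hU : U ∈ unitSet V) (l : ι) :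
    0 ≤ U l l := qf_single U l ▸ hU.2.1 _

theorem diag_le_one {V : Submodule ℝ (ι → ℝ)} {U : Matrix ι ι ℝ} (hU : U ∈ unitSet V) (l : ι) :
    U l l ≤ 1 :=
  hU.2.2.2 ▸ Finset.single_le_sum (fun m _ => diag_nonneg hU m) (Finset.mem_univ l)

theorem unitSet_convex (V : Submodule ℝ (ι → ℝ)) : Convex ℝ (unitSet V) := by
  intro U hU U' hU' a b ha hb hab
  refine ⟨fun i j => by simp [hU.1 i j, hU'.1 i j], fun v => ?_, fun v => ?_, ?_⟩
  · rw [qf_add, qf_smul, qf_smul]
    exact add_nonneg (mul_nonneg ha (hU.2.1 v)) (mul_nonneg hb (hU'.2.1 v))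
  · rw [Matrix.add_mulVec, Matrix.smul_mulVec, Matrix.smul_mulVec]
    exact V.add_mem (V.smul_mem a (hU.2.2.1 v)) (V.smul_mem b (hU'.2.2.1 v))
  · simp only [Matrix.add_apply, Matrix.smul_apply, smul_eq_mul, Finset.sum_add_distrib,
      ← Finset.mul_sum, hU.2.2.2, hU'.2.2.2, mul_one, hab]

theorem qf_two (U : Matrix ι ι ℝ) (i j : ι) (s : ℝ) :
    qf U (Pi.single i 1 + s • Pi.single j 1) =
      U i i + U j i * s + (U i j * s + U j j * (s * s)) := by
  simp only [qf, Pi.add_apply, Pi.smul_apply, smul_eq_mul, Pi.single_apply, mul_ite,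
    mul_one, mul_zero, add_mul, mul_add, ite_mul, one_mul, zero_mul, Finset.sum_add_distrib,
    Finset.sum_ite_eq', Finset.mem_univ, if_true]

theorem unitSet_entry {V : Submodule ℝ (ι → ℝ)} {U : Matrix ι ι ℝ} (hU : U ∈ unitSet V)
    (i j : ι) : U i j ∈ Set.Icc (-1 : ℝ) 1 := by
  have hi := diag_le_one hU i
  have hj := diag_le_one hU j
  rcases eq_or_ne i j with rfl | hij
  · exact ⟨by linarith [diag_nonneg hU i], hi⟩
  · have h1 := hU.2.1 (Pi.single i 1 + (1 : ℝ) • Pi.single j 1)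
    have h2 := hU.2.1 (Pi.single i 1 + (-1 : ℝ) • Pi.single j 1)
    rw [qf_two, hU.1 j i] at h1 h2
    exact ⟨by linarith, by linarith⟩

theorem unitSet_compact (V : Submodule ℝ (ι → ℝ)) : IsCompact (unitSet V) := by
  have hbox : IsCompact
      (Set.pi Set.univ fun _ : ι => Set.pi Set.univ fun _ : ι => Set.Icc (-1 : ℝ) 1) :=
    isCompact_univ_pi fun _ => isCompact_univ_pi fun _ => isCompact_Icc
  refine hbox.of_isClosed_subset ?_ fun U hU i _ j _ => unitSet_entry hU i j
  simp only [unitSet, Set.ofPred_and, Set.ofPred_forall]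
  exact ((isClosed_iInter fun i => isClosed_iInter fun j =>
    isClosed_eq ((continuous_apply j).comp (continuous_apply i))
      ((continuous_apply i).comp (continuous_apply j))).inter
    ((isClosed_iInter fun v => isClosed_le continuous_const (qf_continuous v)).inter
    ((isClosed_iInter fun v => V.closed_of_finiteDimensional.preimage
      (by fun_prop : Continuous fun U : Matrix ι ι ℝ => U.mulVec v)).inter
    (isClosed_eq (by fun_prop) continuous_const))))

/-- The diagonal, slack and weight of a matrix. -/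
def values (η w : ι → ℝ) : Matrix ι ι ℝ →ₗ[ℝ] (ι → ℝ) × (ι → ι → ℝ) × ℝ where
  toFun U := (fun i => U i i,
    fun i j => (Matrix.diagonal (fun i => U i i / η i) - U) i j, ∑ l, w l * U l l)
  map_add' U U' := by
    refine Prod.ext rfl (Prod.ext (funext fun i => funext fun j => ?_) ?_)
    · rcases eq_or_ne i j with rfl | hij
      · simp [add_div]; ring
      · simp [Matrix.diagonal_apply_ne _ hij]; ring
    · simp [mul_add, Finset.sum_add_distrib]
  map_smul' a U := by
    refine Prod.ext rfl (Prod.ext (funext fun i => funext fun j => ?_) ?_)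
    · rcases eq_or_ne i j with rfl | hij
      · simp [mul_sub, mul_div_assoc]
      · simp [Matrix.diagonal_apply_ne _ hij]
    · simp [Finset.mul_sum, mul_left_comm]

/-- The admissible values. -/
def target (T : ℝ) : Set ((ι → ℝ) × (ι → ι → ℝ) × ℝ) :=
  {p | (∀ i, T * p.1 i ≤ p.2.2) ∧ 0 ≤ p.2.2 ∧ ∀ v, 0 ≤ qf (Matrix.of p.2.1) v}

theorem target_form_continuous (v : ι → ℝ) :
    Continuous fun p : (ι → ℝ) × (ι → ι → ℝ) × ℝ => qf (Matrix.of p.2.1) v := by
  simp only [qf, Matrix.of_apply]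
  fun_prop

theorem target_closed (T : ℝ) : IsClosed (target (ι := ι) T) := by
  simp only [target, Set.ofPred_and, Set.ofPred_forall]
  exact (isClosed_iInter fun i => isClosed_le
    (continuous_const.mul ((continuous_apply i).comp continuous_fst))
    (continuous_snd.comp continuous_snd)).inter
    ((isClosed_le continuous_const (continuous_snd.comp continuous_snd)).inter
    (isClosed_iInter fun (v : ι → ℝ) => isClosed_le continuous_const (target_form_continuous v)))

theorem target_cone (T : ℝ) {p : (ι → ℝ) × (ι → ι → ℝ) × ℝ} (hp : p ∈ target T) {a : ℝ}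
    (ha : 0 ≤ a) : a • p ∈ target T := by
  refine ⟨fun i => ?_, mul_nonneg ha hp.2.1, fun v => ?_⟩
  · have := mul_le_mul_of_nonneg_left (hp.1 i) ha
    simp only [Prod.smul_fst, Prod.smul_snd, Pi.smul_apply, smul_eq_mul]
    linarith
  · rw [show Matrix.of (a • p).2.1 = a • Matrix.of p.2.1 from rfl, qf_smul]
    exact mul_nonneg ha (hp.2.2 v)

theorem target_convex (T : ℝ) : Convex ℝ (target (ι := ι) T) := by
  intro p hp q hq a b ha hb hab
  have h1 := target_cone T hp ha
  have h2 := target_cone T hq hb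
  refine ⟨fun i => ?_, add_nonneg h1.2.1 h2.2.1, fun v => ?_⟩
  · have := h1.1 i
    have := h2.1 i
    simp only [Prod.fst_add, Prod.snd_add, Pi.add_apply, mul_add]
    linarith
  · rw [show Matrix.of (a • p + b • q).2.1 = Matrix.of (a • p).2.1 + Matrix.of (b • q).2.1 from rfl,
      qf_add]
    exact add_nonneg (h1.2.2 v) (h2.2.2 v)

/-- Separation: if no matrix is admissible there are dual prices. -/
theorem exists_dual (V : Submodule ℝ (ι → ℝ)) (η w : ι → ℝ) (hw : ∀ i, 0 ≤ w i) {T : ℝ}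
    (hT0 : 0 < T) (hdisj : Disjoint (values η w '' unitSet V) (target T)) :
    ∃ (β : ι → ℝ) (ψ : Matrix ι ι ℝ) (τ : ℝ), (∀ i, 0 ≤ β i) ∧ (∀ v, 0 ≤ qf ψ v) ∧ 0 < τ ∧
      ∑ i, β i ≤ T * τ ∧ ∀ v ∈ V, v ≠ 0 →
        ∑ i, (τ * w i - β i + ψ i i / η i) * v i ^ 2 < qf ψ v := by
  obtain ⟨f, a, b, hfa, hab, hfb⟩ := geometric_hahn_banach_compact_closed
    ((unitSet_convex V).linear_image (values η w))
    ((unitSet_compact V).image (values η w).continuous_of_finiteDimensional)
    (target_convex T) (target_closed T) hdisj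
  have hD0 : (0 : (ι → ℝ) × (ι → ι → ℝ) × ℝ) ∈ target T := by
    refine ⟨fun i => by simp, le_rfl, fun v => ?_⟩
    simp [qf]
  have hb0 : b < 0 := by simpa using hfb 0 hD0
  have hfD : ∀ p ∈ target T, 0 ≤ f p := fun p hp => by
    by_contra hneg
    have hneg := not_le.1 hneg
    have h' := hfb ((b / f p) • p) (target_cone T hp (div_nonneg_of_nonpos hb0.le hneg.le))
    rw [map_smul, smul_eq_mul, div_mul_cancel₀ _ hneg.ne] at h'
    exact lt_irrefl _ h'
  let β : ι → ℝ := fun i => -f (Pi.single i 1, 0, 0)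
  let ψ : Matrix ι ι ℝ := fun i j => f (0, Pi.single i (Pi.single j 1), 0)
  let τ₀ : ℝ := f (0, 0, 1)
  have hrep : ∀ p : (ι → ℝ) × (ι → ι → ℝ) × ℝ, f p =
      -∑ i, p.1 i * β i + ∑ i, ∑ j, p.2.1 i j * ψ i j + p.2.2 * τ₀ := fun p => by
    have hp : p = ∑ i, p.1 i • ((Pi.single i 1, 0, 0) : (ι → ℝ) × (ι → ι → ℝ) × ℝ) +
        ∑ i, ∑ j, p.2.1 i j • ((0, Pi.single i (Pi.single j 1), 0) :
          (ι → ℝ) × (ι → ι → ℝ) × ℝ) + p.2.2 • ((0, 0, 1) : (ι → ℝ) × (ι → ι → ℝ) × ℝ) := by
      refine Prod.ext ?_ (Prod.ext ?_ ?_)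
      · simp [Prod.fst_sum, ← pi_eq_sum_univ']
      · ext i j
        simp [Prod.fst_sum, Prod.snd_sum, Finset.sum_apply, Pi.single_apply]
      · simp [Prod.snd_sum]
    conv_lhs => rw [hp]
    simp only [map_add, map_sum, map_smul, smul_eq_mul, β, ψ, τ₀, mul_neg, Finset.sum_neg_distrib,
      neg_neg]
  have hψ : ∀ v, 0 ≤ qf ψ v := fun v => by
    have h := hfD (0, fun i j => v i * v j, 0) ⟨fun i => by simp, le_rfl,
      fun u => by rw [show Matrix.of (fun i j => v i * v j) = _ from rfl, qf_outer]; positivity⟩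
    rw [hrep] at h
    simp only [Pi.zero_apply, zero_mul, Finset.sum_const_zero, neg_zero, zero_add, add_zero] at h
    simpa [qf, mul_comm] using h
  have hqf0 : ∀ v, 0 ≤ qf (Matrix.of (0 : ι → ι → ℝ)) v := fun v => by simp [qf]
  have hβ : ∀ i, 0 ≤ β i := fun i => by
    have h := hfD (-(Pi.single i 1), 0, 0) ⟨fun l => by
      by_cases hl : l = i
      · subst hl; simp; linarith
      · simp [Pi.single_eq_of_ne hl], le_rfl, hqf0⟩
    have heq : ((-(Pi.single i 1), 0, 0) : (ι → ℝ) × (ι → ι → ℝ) × ℝ) =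
        -(Pi.single i 1, 0, 0) := by simp
    rw [heq, map_neg] at h
    exact h
  have hτ₀ : ∑ i, β i ≤ T * τ₀ := by
    have h := hfD (fun _ => 1 / T, 0, 1)
      ⟨fun l => by simp [mul_inv_cancel₀ hT0.ne'], zero_le_one, hqf0⟩
    rw [hrep] at h
    simp only [Pi.zero_apply, zero_mul, Finset.sum_const_zero, add_zero, one_mul,
      ← Finset.mul_sum] at h
    have := mul_le_mul_of_nonneg_left h hT0.le
    rw [mul_zero, mul_add, mul_neg, ← mul_assoc, mul_one_div, div_self hT0.ne', one_mul] at this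
    linarith
  set W0 : ℝ := ∑ l, w l
  have hW0 : 0 ≤ W0 := Finset.sum_nonneg fun l _ => hw l
  set τ : ℝ := τ₀ + -a / (1 + W0)
  have ha0 : 0 < -a := by linarith
  have hτpos : 0 < τ := by
    have : 0 ≤ τ₀ := by
      have := Finset.sum_nonneg fun i (_ : i ∈ Finset.univ) => hβ i
      exact nonneg_of_mul_nonneg_right (le_trans this hτ₀) hT0
    positivity
  have hτT : ∑ i, β i ≤ T * τ := le_trans hτ₀ (by
    refine mul_le_mul_of_nonneg_left ?_ hT0.le
    have : 0 ≤ -a / (1 + W0) := by positivity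
    linarith)
  -- the pointwise inequality on `V`
  have hV : ∀ v ∈ V, v ≠ 0 → ∑ i, (τ * w i - β i + ψ i i / η i) * v i ^ 2 < qf ψ v := by
    intro v hv hv0
    set N : ℝ := ∑ i, v i ^ 2
    have hN : 0 < N := by
      obtain ⟨i, hi⟩ := Function.ne_iff.1 hv0
      exact Finset.sum_pos' (fun l _ => sq_nonneg _) ⟨i, Finset.mem_univ i, pow_two_pos_of_ne_zero hi⟩
    let U : Matrix ι ι ℝ := N⁻¹ • Matrix.of fun i j => v i * v j
    have hU : U ∈ unitSet V := by
      refine ⟨fun i j => by simp [U, mul_comm (v i)],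
        fun u => by rw [qf_smul, qf_outer]; positivity, fun u => ?_, ?_⟩
      · have : U.mulVec u = (N⁻¹ * ∑ j, v j * u j) • v := by
          ext i
          simp [U, Matrix.mulVec, dotProduct, Finset.mul_sum, Finset.sum_mul]
          exact Finset.sum_congr rfl fun j _ => by ring
        rw [this]
        exact V.smul_mem _ hv
      · simp [U, ← Finset.mul_sum, ← pow_two, N, hN.ne']
    have h := hfa _ ⟨U, hU, rfl⟩
    rw [hrep] at h
    change -∑ i, U i i * β i + ∑ i, ∑ j, (Matrix.diagonal (fun i => U i i / η i) - U) i j * ψ i j +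
      (∑ l, w l * U l l) * τ₀ < a at h
    have h1 : ∑ i, ∑ j, (Matrix.diagonal (fun i => U i i / η i) - U) i j * ψ i j =
        ∑ i, U i i / η i * ψ i i - N⁻¹ * qf ψ v := by
      simp only [Matrix.sub_apply, sub_mul, Finset.sum_sub_distrib, Matrix.diagonal_apply,
        ite_mul, zero_mul, Finset.sum_ite_eq, Finset.mem_univ, if_true]
      congr 1
      simp only [qf, U, Matrix.smul_apply, Matrix.of_apply, smul_eq_mul, Finset.mul_sum]
      exact Finset.sum_congr rfl fun i _ => Finset.sum_congr rfl fun j _ => by ring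
    have h2 : (∑ l, w l * U l l) * (-a / (1 + W0)) ≤ -a := by
      have hle : ∑ l, w l * U l l ≤ W0 := Finset.sum_le_sum fun l _ =>
        mul_le_of_le_one_right (hw l) (diag_le_one hU l)
      calc (∑ l, w l * U l l) * (-a / (1 + W0)) ≤ (1 + W0) * (-a / (1 + W0)) := by
            gcongr
            linarith
        _ = -a := by field_simp
    have h3 : N⁻¹ * ∑ i, (τ * w i - β i + ψ i i / η i) * v i ^ 2 =
        -∑ i, U i i * β i + ∑ i, U i i / η i * ψ i i +
          (∑ l, w l * U l l) * τ₀ + (∑ l, w l * U l l) * (-a / (1 + W0)) := by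
      rw [add_assoc, ← mul_add, Finset.mul_sum, Finset.sum_mul, ← Finset.sum_neg_distrib,
        ← Finset.sum_add_distrib, ← Finset.sum_add_distrib]
      refine Finset.sum_congr rfl fun i _ => ?_
      simp only [U, Matrix.smul_apply, Matrix.of_apply, smul_eq_mul, τ]
      ring
    have h4 : N⁻¹ * ∑ i, (τ * w i - β i + ψ i i / η i) * v i ^ 2 < N⁻¹ * qf ψ v := by linarith
    exact lt_of_mul_lt_mul_left h4 (inv_nonneg.2 hN.le)
  exact ⟨β, ψ, τ, hβ, hψ, hτpos, hτT, hV⟩

/-- Dual prices contradict the counting hypothesis. -/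
theorem dual_false (V : Submodule ℝ (ι → ℝ)) (η w β : ι → ℝ) (ψ : Matrix ι ι ℝ) (τ T : ℝ)
    (hη : ∀ i, 0 < η i) (hβ : ∀ i, 0 ≤ β i) (hψ : ∀ v, 0 ≤ qf ψ v) (hτpos : 0 < τ)
    (hτT : ∑ i, β i ≤ T * τ)
    (hV : ∀ v ∈ V, v ≠ 0 → ∑ i, (τ * w i - β i + ψ i i / η i) * v i ^ 2 < qf ψ v)
    (hT : ∀ S : Finset ι, ∑ i ∈ S, (1 - η i) + Module.finrank ℝ V ≤ Fintype.card ι →
      T < ∑ i ∈ Sᶜ, w i) : False := by
  -- rescale on the set where the dual price is below the weight
  let S : Finset ι := Finset.univ.filter fun i => β i < τ * w i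
  let c : ι → ℝ := fun i => τ * w i - β i + ψ i i / η i
  have hy : ∀ i, 0 ≤ ψ i i := fun i => qf_single ψ i ▸ hψ _
  have hc : ∀ i ∈ S, 0 < c i := fun i hi => by
    have h1 : β i < τ * w i := (Finset.mem_filter.1 hi).2
    have : 0 ≤ ψ i i / η i := div_nonneg (hy i) (hη i).le
    simp only [c]
    linarith
  let r : ι → ℝ := fun i => if i ∈ S then (Real.sqrt (c i))⁻¹ else 0
  let Z : Matrix ι ι ℝ := fun i j => r i * ψ i j * r j
  have hZq : ∀ v, qf Z v = qf ψ fun i => r i * v i := fun v => by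
    simp only [qf, Z]
    exact Finset.sum_congr rfl fun i _ => Finset.sum_congr rfl fun j _ => by ring
  obtain ⟨W, hWV, hWS, hdim⟩ := finrank_inter_support V S
  let g : (ι → ℝ) →ₗ[ℝ] (ι → ℝ) :=
    LinearMap.pi fun i => (if i ∈ S then Real.sqrt (c i) else 0) • LinearMap.proj i
  have hrg : ∀ v ∈ W, ∀ i, r i * g v i = v i := fun v hv i => by
    simp only [r, g, LinearMap.pi_apply, LinearMap.smul_apply, LinearMap.proj_apply, smul_eq_mul]
    split_ifs with hi
    · rw [← mul_assoc, inv_mul_cancel₀ (Real.sqrt_pos.2 (hc i hi)).ne', one_mul]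
    · simp [hWS v hv i hi]
  have hrank : Module.finrank ℝ (W.map g) = Module.finrank ℝ W := by
    refine (LinearEquiv.finrank_eq (LinearEquiv.ofBijective (g.submoduleMap W) ⟨?_, g.submoduleMap_surjective W⟩)).symm
    intro x y hxy
    ext i
    have := congrFun (congrArg Subtype.val hxy) i
    rw [← hrg x x.2 i, ← hrg y y.2 i]
    exact congrArg (r i * ·) this
  have htrace := finrank_le_trace Z (W.map g) (fun v => hZq v ▸ hψ _) fun u hu => by
    obtain ⟨v, hv, rfl⟩ := Submodule.mem_map.1 hu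
    rw [hZq, funext (hrg v hv)]
    rcases eq_or_ne v 0 with rfl | hv0
    · simp [qf]
    refine le_trans (le_of_eq (Finset.sum_congr rfl fun i _ => ?_)) (hV v (hWV hv) hv0).le
    simp only [g, LinearMap.pi_apply, LinearMap.smul_apply, LinearMap.proj_apply, smul_eq_mul]
    split_ifs with hi
    · rw [mul_pow, Real.sq_sqrt (hc i hi).le]
    · simp [hWS v hv i hi]
  have hdiag : ∑ i, Z i i ≤ ∑ i ∈ S, η i := by
    rw [← Finset.sum_subset S.subset_univ (fun i _ hi => by simp [Z, r, hi])]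
    refine Finset.sum_le_sum fun i hi => ?_
    have h0 := Real.sqrt_pos.2 (hc i hi)
    have h1 : β i < τ * w i := (Finset.mem_filter.1 hi).2
    have hzi : Z i i = ψ i i / c i := by
      simp only [Z, r, if_pos hi]
      conv_rhs => rw [← Real.mul_self_sqrt (hc i hi).le, div_eq_mul_inv, mul_inv]
      ring
    rw [hzi, div_le_iff₀ (hc i hi)]
    have h2 : η i * (ψ i i / η i) = ψ i i := mul_div_cancel₀ _ (hη i).ne'
    have h3 : 0 ≤ η i * (τ * w i - β i) := mul_nonneg (hη i).le (by linarith)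
    simp only [c, mul_add]
    linarith
  have hS : ∑ i ∈ S, (1 - η i) + Module.finrank ℝ V ≤ Fintype.card ι := by
    have : (S.card : ℝ) + Module.finrank ℝ V ≤ Fintype.card ι + Module.finrank ℝ W := by
      exact_mod_cast hdim
    rw [hrank] at htrace
    simp only [Finset.sum_sub_distrib, Finset.sum_const, nsmul_eq_mul, mul_one]
    linarith
  have hlast := mul_lt_mul_of_pos_left (hT S hS) hτpos
  have : τ * ∑ i ∈ Sᶜ, w i ≤ ∑ i, β i := by
    rw [Finset.mul_sum]
    refine le_trans (Finset.sum_le_sum fun i hi => ?_)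
      (Finset.sum_le_sum_of_subset_of_nonneg (Finset.subset_univ _) fun i _ _ => hβ i)
    by_contra hlt
    exact (Finset.mem_compl.1 hi) (Finset.mem_filter.2 ⟨Finset.mem_univ i, not_le.1 hlt⟩)
  linarith

/-- The semidefinite covariance lemma. -/
theorem exists_covariance (V : Submodule ℝ (ι → ℝ)) (η w : ι → ℝ) (hη : ∀ i, 0 < η i)
    (hw : ∀ i, 0 ≤ w i) (T : ℝ)
    (hT : ∀ S : Finset ι, ∑ i ∈ S, (1 - η i) + Module.finrank ℝ V ≤ Fintype.card ι →
      T < ∑ i ∈ Sᶜ, w i) :
    ∃ U : Matrix ι ι ℝ, U.PosSemidef ∧ (∀ v, U.mulVec v ∈ V) ∧ (∀ i, U i i ≤ 1) ∧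
      (Matrix.diagonal (fun i => U i i / η i) - U).PosSemidef ∧ T ≤ ∑ i, w i * U i i := by
  rcases le_or_gt T 0 with hT0 | hT0
  · refine ⟨0, Matrix.PosSemidef.zero, fun v => by simp, fun i => by simp, ?_, by simpa using hT0⟩
    simpa using Matrix.PosSemidef.zero
  let slack : Matrix ι ι ℝ → Matrix ι ι ℝ := fun U => Matrix.diagonal (fun i => U i i / η i) - U
  suffices h : ∃ U ∈ unitSet V, (∀ v, 0 ≤ qf (slack U) v) ∧ ∀ i, T * U i i ≤ ∑ l, w l * U l l by
    obtain ⟨U, ⟨hs, hp, hV, htr⟩, hZ, ht⟩ := h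
    have hd : ∀ i, 0 ≤ U i i := fun i => qf_single U i ▸ hp _
    have hpos : 0 < ∑ l, w l * U l l := by
      by_contra hle
      have : ∀ i, U i i = 0 := fun i => le_antisymm
        (nonpos_of_mul_nonpos_right (le_trans (ht i) (not_lt.1 hle)) hT0) (hd i)
      simp [this] at htr
    set c : ℝ := T / ∑ l, w l * U l l with hc
    have hc0 : 0 ≤ c := by positivity
    refine ⟨c • U, (posSemidef_of_qf hs hp).smul hc0, fun v => ?_, fun i => ?_, ?_, ?_⟩
    · rw [Matrix.smul_mulVec]
      exact V.smul_mem c (hV v)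
    · rw [Matrix.smul_apply, smul_eq_mul, hc, div_mul_eq_mul_div, div_le_one hpos]
      exact ht i
    · have h1 : (Matrix.diagonal (fun i => (c • U) i i / η i) - c • U) = c • slack U := by
        ext i j
        rcases eq_or_ne i j with rfl | hij
        · simp [slack, mul_sub, mul_div_assoc]
        · simp [slack, Matrix.diagonal_apply_ne _ hij]
      rw [h1]
      refine (posSemidef_of_qf (fun i j => ?_) hZ).smul hc0
      simp only [slack, Matrix.sub_apply, hs i j]
      rcases eq_or_ne i j with rfl | hij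
      · rfl
      · simp [Matrix.diagonal_apply_ne _ hij, Matrix.diagonal_apply_ne _ hij.symm]
    · simp only [Matrix.smul_apply, smul_eq_mul, mul_left_comm _ c, ← Finset.mul_sum]
      rw [hc, div_mul_cancel₀ _ hpos.ne']
  by_contra hno
  have hdisj : Disjoint (values η w '' unitSet V) (target T) := by
    rw [Set.disjoint_left]
    rintro _ ⟨U, hU, rfl⟩ hD
    exact hno ⟨U, hU, hD.2.2, hD.1⟩
  obtain ⟨β, ψ, τ, hβ, hψ, hτ, hτT, hV⟩ := exists_dual V η w hw hT0 hdisj
  exact dual_false V η w β ψ τ T hη hβ hψ hτ hτT hV hT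

end

end Vale.Agent.P078.Walk
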